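import Vale.Agent.P126.MathlibUsed
import Vale.Agent.P126.Defs
import Vale.Agent.P126.Bdl.B1

open Pointwise

namespace Vale.Agent.Results.P126.Disproof

open Vale.Agent.P126 Vale.Agent.P126.CE

/-- The duality conjecture for metric entropy is false. -/
theorem result :
    (¬ ∃ a b : ℝ, 1 ≤ a ∧ 1 ≤ b ∧ ∀ n : ℕ, 1 ≤ n → ∀ K L : Set (EuclideanSpace ℝ (Fin n)),
      IsSymmBody K → IsSymmBody L →
        1 / b * Real.log (coveringNumber (polarBody L) (a • polarBody K)) ≤
            Real.log (coveringNumber K L) ∧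
        Real.log (coveringNumber K L) ≤
          b * Real.log (coveringNumber (polarBody L) (a⁻¹ • polarBody K))) ∧
    (∀ a b : ℝ, 1 ≤ a → 1 ≤ b → ∃ n : ℕ, 1 ≤ n ∧ ∃ K L : Set (EuclideanSpace ℝ (Fin n)),
      IsSymmBody K ∧ IsSymmBody L ∧
        b * Real.log (coveringNumber (polarBody L) (a⁻¹ • polarBody K)) <
          Real.log (coveringNumber K L)) ∧
    (∀ a b : ℝ, 1 ≤ a → 1 ≤ b → ∃ n : ℕ, 1 ≤ n ∧ ∃ K L : Set (EuclideanSpace ℝ (Fin n)),
      IsSymmBody K ∧ IsSymmBody L ∧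
        Real.log (coveringNumber K L) <
          1 / b * Real.log (coveringNumber (polarBody L) (a • polarBody K))) := by
  have hclaim : ∀ k, Claim k := fun k => Nat.rec claim_zero (fun k h => claim_succ k h) k
  have hcore : Core := core_of_claim hclaim
  have h1 := disproof_of_core hcore
  have h2 := disproof_left_of_core hcore
  refine ⟨?_, ?_, ?_⟩
  · rintro ⟨a, b, ha, hb, h⟩
    obtain ⟨n, hn, K, L, hK, hL, hlt⟩ := h1 a b ha hb
    exact absurd (h n hn K L hK hL).2 (not_le.2 hlt)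
  · intro a b ha hb
    obtain ⟨n, hn, K, L, hK, hL, hlt⟩ := h1 a b ha hb
    exact ⟨n, hn, K, L, hK, hL, hlt⟩
  · intro a b ha hb
    obtain ⟨n, hn, K, L, hK, hL, hlt⟩ := h2 a b ha hb
    exact ⟨n, hn, K, L, hK, hL, hlt⟩

end Vale.Agent.Results.P126.Disproof
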